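import Vale.Agent.P181.SZ.Final
import Vale.Agent.P181.PL1.Pie
import Vale.Agent.P181.PL2.LExT
import Vale.Agent.P181.PL3.All
import Vale.Agent.P181.PL4.Lbl
import Vale.Agent.P181.PL5.Asm
import Vale.Agent.P181.PL6.AsmD
import Vale.Agent.P181.PL7.CaseIX
import Vale.Agent.P181.PL81.Heavy1
import Vale.Agent.P181.PL8b.Heavy2
import Vale.Agent.P181.PL508.Heavy3
import Vale.Agent.P181.PL508.Heavy4
import Vale.Agent.P181.PL9.Light
import Vale.Agent.P181.PL10.Scan
import Vale.Agent.P181.PLX.Poly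
import Vale.Agent.P181.H530.Inj

set_option autoImplicit false

/-!
# P181, PL: `b ≥ C a (1 + log a) ^ c`, all partitions
-/

universe u

namespace Vale.Agent.P181.PLX

open Vale.Agent.P181.PL Vale.Agent.P181.H280

/-- **(P5)**, unconditional. -/
theorem asmP0 : AsmP :=
  PL5.asmP SZ.R1b.upperS SZR2.lowerS (SZR3.splitS SZT0.transS) SZR4.few_s PL1.pieS SZC1.flowS

/-- **(P8)**, unconditional. -/
theorem heavyS : HeavyS :=
  heavy_of (PL81.heavy1 (PL7.caseIX_of PL2.lEx)) (PL8b.heavy2 PL4.lbl PL6.asmD)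
    (PL508.heavy3_of PL4.lbl asmP0) (PL508.heavy4_of (PL3.lbi PL2.lEx) asmP0)

/-- **(P10)**, unconditional. -/
theorem scanS : ScanS := PL10.scan_of heavyS PL9.light

/-- **(P11)**, unconditional. -/
theorem polyS : PolyS := poly_of_scan scanS

/-- The form of the hand-in. -/
theorem poly_result : ∃ (C : ℝ) (c : ℕ), ∀ a b : ℕ, C * a * (1 + Real.log a) ^ c ≤ b →
    H530.FoulkesInjection.{u} a b ∧
      ∀ (n : ℕ) (lam : Fin n → ℕ), plethMult a b n lam ≤ plethMult b a n lam := by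
  obtain ⟨C, c, -, h⟩ := polyS
  exact ⟨C, c, fun a b hab => ⟨H530.foulkesInjection_of_mult (h a b hab), h a b hab⟩⟩

end Vale.Agent.P181.PLX
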