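import Vale.Agent.P181.PL10.Lin

set_option autoImplicit false

/-!
# P181, PL, P11: the polylog theorem from the scan
-/

namespace Vale.Agent.P181.PLX

open Vale.Agent.P181.T4 (ex low)
open Vale.Agent.P181.H280 (plethMult)
open Vale.Agent.P181.PL Vale.Agent.P181.PL10

/-- The last step with general exponents. -/
theorem poly_gen (p q m : ℕ) (hS : ∀ (a b n X : ℕ) (lam : Fin n → ℕ), Antitone lam →
    ∑ i, lam i = a * b → (∀ i, 0 < lam i) → n ≤ a → b ≤ a ^ 2 → a * X ^ q ≤ b → X ^ p ≤ a →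
    10 ^ 12 * (1 + Real.log a) ^ m ≤ X → plethMult a b n lam ≤ plethMult b a n lam) :
    ∃ C : ℝ, 0 < C ∧ ∀ a b : ℕ, C * a * (1 + Real.log a) ^ (m * q) ≤ b →
      ∀ (n : ℕ) (lam : Fin n → ℕ), plethMult a b n lam ≤ plethMult b a n lam := by
  obtain ⟨K, hK⟩ : ∃ K : ℝ, K = 2 * 10 ^ 12 := ⟨_, rfl⟩
  have hK0 : 0 < K := by
    rw [hK]
    norm_num
  obtain ⟨A0, hA0⟩ := ev K hK0 m p
  have hKq : 0 < K ^ q := pow_pos hK0 _
  refine ⟨K ^ q + (A0 : ℝ) ^ 2, by positivity, ?_⟩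
  intro a b hab n lam
  have hlog : 0 ≤ Real.log a := Real.log_natCast_nonneg a
  have hL1 : (1 : ℝ) ≤ (1 + Real.log a) ^ (m * q) := one_le_pow₀ (by linarith)
  rcases le_or_gt ((a - 1) ^ 2) b with hb | hb
  · exact H463.big_stmt a b n lam hb
  have ha1 : 1 ≤ a := by
    by_contra h0
    have : a = 0 := by omega
    subst this
    simp at hb
  have haR : (1 : ℝ) ≤ a := by exact_mod_cast ha1
  have hb2 : b ≤ a ^ 2 := hb.le.trans (Nat.pow_le_pow_left (Nat.sub_le _ _) 2)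
  rcases lt_or_ge a A0 with ha | ha
  · exfalso
    have h2 : (a : ℝ) ^ 2 ≤ (A0 : ℝ) ^ 2 := by
      have : (a : ℝ) ≤ A0 := by exact_mod_cast ha.le
      exact pow_le_pow_left₀ (Nat.cast_nonneg _) this _
    have h3 : (b : ℝ) < (a : ℝ) ^ 2 := by
      have h4 : b < a ^ 2 := lt_of_lt_of_le hb (Nat.pow_le_pow_left (Nat.sub_le _ _) 2)
      exact_mod_cast h4
    have h5 : (K ^ q + (A0 : ℝ) ^ 2) * 1 * 1 ≤
        (K ^ q + (A0 : ℝ) ^ 2) * a * (1 + Real.log a) ^ (m * q) := by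
      gcongr
    linarith
  refine trimQ lam fun k mu hanti hsum hpos hka hdn => ?_
  obtain ⟨X, hX1, hX2⟩ := exists_X a m
  rw [← hK] at hX2
  refine hS a b k X mu hanti hsum hpos hka hb2 ?_ ?_ hX1
  · have h1 := num_q (w := (a : ℝ)) (A := (b : ℝ)) q m
      (Nat.cast_nonneg _) (Nat.cast_nonneg X) hX2 (by
        refine le_trans ?_ hab
        have e1 : (K ^ q + (A0 : ℝ) ^ 2) * a * (1 + Real.log a) ^ (m * q) =
          (K ^ q + (A0 : ℝ) ^ 2) * (1 + Real.log a) ^ (m * q) * a := by ring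
        rw [e1]
        apply mul_le_mul_of_nonneg_right _ (Nat.cast_nonneg _)
        apply mul_le_mul_of_nonneg_right _ (by positivity)
        have : (0 : ℝ) ≤ (A0 : ℝ) ^ 2 := by positivity
        linarith)
    rw [← Nat.cast_pow, ← Nat.cast_mul] at h1
    exact Nat.cast_le.1 h1
  · have h1 : (X : ℝ) ^ p ≤ (K * (1 + Real.log a) ^ m) ^ p :=
      pow_le_pow_left₀ (Nat.cast_nonneg _) hX2 _
    have h2 := h1.trans (hA0 a ha)
    rw [← Nat.cast_pow] at h2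
    exact Nat.cast_le.1 h2

/-- **(P11)** -/
theorem poly_of_scan (hS : ScanS) : PolyS := by
  obtain ⟨C, hC, h⟩ := poly_gen 20000 6000 7 hS
  exact ⟨C, 7 * 6000, hC, h⟩

end Vale.Agent.P181.PLX
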